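import Vale.Agent.P216.H651.TwoBase
import Vale.Agent.P216.DV706.PInstC
import Vale.Agent.P216.H934D.Bridge

/-!
# P216-T, row BF: finiteness at a low level, for every field

`baseFinK_of_fin`: from the finiteness of `H^*(M; k)`, one field, no condition on the
characteristic.  `baseFinK_of_baseK`: the same from `BaseK k M d h`.
-/

set_option linter.all false

open Set Topology
open Module (finrank)

namespace Vale.Agent.P216.H550T

open AS GM B64 B633 B609 Low DV706 H651
open Vale.Agent.P216.H288 Vale.Agent.P216.H494 Vale.Agent.P216.L250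
open Vale.Agent.P216.Sl
open Vale.Agent.P216.H133C (pw)
open Vale.Agent.P216.N929 (Coc)

section

variable {M : Type} [MetricSpace M] [CompactSpace M] (G : GeoList M)
  (hD : DescentStmt (Hol.triv : Hol M) G)

/-- **Finiteness at a low level** from the finiteness of the cohomology of `M`, one field of any
characteristic. -/
theorem baseFinK_of_fin (k : Type) [Field k]
    (h4 : ∀ q, Module.Finite k (HU k (Set.univ : Set M) q))
    (h5' : ∃ N, ∀ q ≥ N, Subsingleton (HU k (Set.univ : Set M) q)) :
    (mkGSys Hol.triv G hD).BaseFinK k := by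
  obtain ⟨s₁, hr⟩ := exists_retr (Hol.triv : Hol M) G hD
  obtain ⟨s₀, h0, h1, h2'⟩ := GSys.exists_lt_ℓ (mkGSys Hol.triv G hD) hr.pos
  have key : ∀ q, ∃ e : (mkGSys Hol.triv G hD).V k s₀ q →ₗ[k] Hu k (univ : Set M) q,
      Function.Bijective e := by
    intro q
    have hb := hr.res_bijective (k := k) h0 h1 h2' q
    have hs := sec_bijective (k := k) (Hol.triv : Hol M) q
    have h3 : ∀ Y, (mkGSys Hol.triv G hD).X 0 = Y →
        ∃ e : (mkGSys Hol.triv G hD).V k s₀ q →ₗ[k]
        Ha (fun _ : Unit => deckC) (fun _ : Unit => (-1 : k)) Y q, Function.Bijective e := by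
      rintro _ rfl
      exact ⟨_, hb⟩
    obtain ⟨e, he⟩ := h3 _ (XX_eq le_rfl)
    exact ⟨(AS.Hmap (isMor_sec (k := k) (Hol.triv : Hol M)) q) ∘ₗ e, by
      rw [LinearMap.coe_comp]
      exact hs.comp he⟩
  obtain ⟨N, h5⟩ := h5'
  refine ⟨s₀, h0, h2', fun q => ?_, N, fun q hq => ?_⟩
  · obtain ⟨e, he⟩ := key q
    obtain ⟨e', he'⟩ := hinc_bijective k (univ : Set M) q
    have := h4 q
    have := Module.Finite.of_surjective e' he'.2
    exact Module.Finite.equiv (LinearEquiv.ofBijective e he).symm
  · obtain ⟨e, he⟩ := key q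
    obtain ⟨e', he'⟩ := hinc_bijective k (univ : Set M) q
    have := h5 q hq
    have := he'.2.subsingleton
    exact he.1.subsingleton

end

section

variable {M : Type} [MetricSpace M] {k : Type} [Field k] {d h : ℕ}

/-- The cohomology of `M` is at most one-dimensional in every degree. -/
theorem finite_of_baseK (K : H934D.BaseK k M d h) (q : ℕ) :
    Module.Finite k (HU k (Set.univ : Set M) q) := by
  by_cases hq : ∃ j ≤ h, q = d * j
  · obtain ⟨j, hj, rfl⟩ := hq
    have hp : CocL (univ : Set M) (d * j) (pw K.ξ d j) := H934D.pw_cocL K.hε K.cξ j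
    refine ⟨{cls (a0 M) (c0 k) _ hp}, ?_⟩
    rw [eq_top_iff]
    rintro z -
    rw [Finset.coe_singleton, Submodule.mem_span_singleton]
    obtain ⟨f, hf, -, rfl⟩ := exists_cls z
    obtain ⟨a, ha⟩ := K.line j hj f hf
    refine ⟨a, ?_⟩
    rw [cls_smul]
    exact (cls_eq_cls.2 ha).symm
  · have hs : Subsingleton (HU k (Set.univ : Set M) q) := by
      refine subsingleton_of_forall_eq 0 fun z => ?_
      obtain ⟨f, hf, -, rfl⟩ := exists_cls z
      exact cls_eq_zero.2 (K.zero q (fun j hj he => hq ⟨j, hj, he⟩) f hf)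
    infer_instance

/-- The cohomology of `M` vanishes above the degree `d * h`. -/
theorem subsingleton_of_baseK (K : H934D.BaseK k M d h) {q : ℕ} (hq : d * h + 1 ≤ q) :
    Subsingleton (HU k (Set.univ : Set M) q) := by
  refine subsingleton_of_forall_eq 0 fun z => ?_
  obtain ⟨f, hf, -, rfl⟩ := exists_cls z
  refine cls_eq_zero.2 (K.zero q (fun j hj he => ?_) f hf)
  have := Nat.mul_le_mul_left d hj
  omega

end

section

variable {M : Type} [MetricSpace M] [CompactSpace M] (G : GeoList M)
  (hD : DescentStmt (Hol.triv : Hol M) G)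

/-- **Finiteness at a low level**, from `BaseK`. -/
theorem baseFinK_of_baseK {k : Type} [Field k] {d h : ℕ} (K : H934D.BaseK k M d h) :
    (mkGSys Hol.triv G hD).BaseFinK k :=
  baseFinK_of_fin G hD k (finite_of_baseK K) ⟨d * h + 1, fun _ hq => subsingleton_of_baseK K hq⟩

end

end Vale.Agent.P216.H550T
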