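import Vale.Agent.P216.H550T.LinT
import Vale.Agent.P216.H651.StepG

/-!
# P216-T, row S: the walls of the free loops for every field

The theorems `lin_loops`, `exists_stepFL`, `exists_stepFL1` of `H550` and `stepX_of_omega_mfd` of
`H651` without the condition `(2 : k) ≠ 0`, hence for `ZMod 2` as well.
-/

set_option linter.all false

open Set Filter Topology BoundedContinuousFunction Manifold
open scoped ContDiff

namespace Vale.Agent.P216.H550T

section Loops

open Vale.Agent.P216.PS Vale.Agent.P216.MV337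
open Vale.Agent.P216.AS
open Vale.Agent.P216.H901 (Hp SpIntl tr on PM Retr ovr)
open Vale.Agent.P216.H83 (MonoP pmX monoP_empty)
open Vale.Agent.P216.C313
open Vale.Agent.P216.C337
open Vale.Agent.P216.H550 hiding linW_lU lin_pulled lin_loops

variable {M : Type} [MetricSpace M] [CompactSpace M]

theorem lin_pulled {V : Type} [NormedAddCommGroup V] [NormedSpace ℝ V] [PathConnectedSpace M]
    {ρ : ℝ} (hρ : 0 < ρ) (hU : LS.UniqSeg M ρ) (T : Geometry.SimplicialComplex ℝ V)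
    (hT : T.faces.Finite) {f : V → M} (hf : ContinuousOn f T.space) (x₀ : M) {a : ℝ}
    (ha : 0 ≤ a) {C : ℝ} (hC : 0 < C) : ∃ C', C ≤ C' ∧ ∀ (k : Type) [Field k],
    ∀ W : ℕ → ℝ, Wall W a → LinW k (fun t => P x₀ x₀ t) (monoP_P x₀ x₀) W C →
      LinW k (fun t => XY f t T.space) (monoP_XY f T.space) W C' := by
  classical
  -- the closed simplices
  have hcpt : ∀ s : Finset V, IsCompact (convexHull ℝ (s : Set V)) := fun s =>
    s.finite_toSet.isCompact_convexHull ℝ
  have hne : ∀ s ∈ T.faces, ∃ y₀, y₀ ∈ convexHull ℝ (s : Set V) := fun s hs => by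
    obtain ⟨y, hy⟩ := T.nonempty_of_mem_faces hs
    exact ⟨y, subset_convexHull ℝ _ hy⟩
  have hKc : ∀ (s : Finset V) (y₀ : V), ContinuousOn (conv y₀)
      (convexHull ℝ (s : Set V) ×ˢ Icc (0:ℝ) 1) := fun s y₀ => by
    unfold conv
    fun_prop
  have hKm : ∀ (s : Finset V) (y₀ : V), y₀ ∈ convexHull ℝ (s : Set V) →
      ∀ x ∈ convexHull ℝ (s : Set V), ∀ σ ∈ Icc (0:ℝ) 1,
        conv y₀ (x, σ) ∈ convexHull ℝ (s : Set V) := fun s y₀ hy x hx σ hσ =>
    convex_convexHull ℝ _ hx hy (by linarith [hσ.2]) hσ.1 (by ring)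
  have hK0 : ∀ (y₀ x : V), conv y₀ (x, 0) = x := fun y₀ x => by
    show (1 - (0:ℝ)) • x + (0:ℝ) • y₀ = x
    rw [sub_zero, one_smul, zero_smul, add_zero]
  have hK1 : ∀ (y₀ x : V), conv y₀ (x, 1) = y₀ := fun y₀ x => by
    show (1 - (1:ℝ)) • x + (1:ℝ) • y₀ = y₀
    rw [sub_self, zero_smul, one_smul, zero_add]
  -- the tracks
  have key : ∀ s ∈ T.faces, ∃ y₀ ℓ, ∃ S : V → ℝ → M, y₀ ∈ convexHull ℝ (s : Set V) ∧
      TrY (convexHull ℝ (s : Set V)) f (fun _ => x₀) ℓ S := by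
    intro s hs
    obtain ⟨y₀, hy⟩ := hne s hs
    obtain ⟨ℓ, S, h⟩ := exists_null_of_con hρ hU (hcpt s)
      (hf.mono (T.convexHull_subset_space hs)) (hKc s y₀) (hKm s y₀ hy) (fun x _ => hK0 y₀ x)
      (fun x _ => hK1 y₀ x) x₀
    exact ⟨y₀, ℓ, S, hy, h⟩
  choose! y₀ ℓ S hy hS using key
  obtain ⟨ℓ', hℓ'⟩ : ∃ ℓ', ∀ s ∈ T.faces, ℓ s ≤ ℓ' := by
    obtain ⟨ℓ', h⟩ := (hT.image ℓ).bddAbove
    exact ⟨ℓ', fun s hs => h ⟨s, hs, rfl⟩⟩
  set ℓm := max 0 ℓ' with hℓm
  have hℓ0 : 0 ≤ ℓm := le_max_left _ _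
  have hℓ1 : ∀ s ∈ T.faces, ℓ s ≤ ℓm := fun s hs => (hℓ' s hs).trans (le_max_right _ _)
  have hC1 : 0 < C + 4 * ℓm := by linarith
  -- the class of closed sets
  let 𝒟 : Set (Set V) := {D | D = ∅ ∨ ∃ s ∈ T.faces, D = convexHull ℝ (s : Set V)}
  have hcl : ∀ D ∈ 𝒟, IsClosed D := by
    rintro D (rfl | ⟨s, hs, rfl⟩)
    · exact isClosed_empty
    · exact (hcpt s).isClosed
  have hint : ∀ D ∈ 𝒟, ∀ D' ∈ 𝒟, D ∩ D' ∈ 𝒟 := by
    rintro D (rfl | ⟨s, hs, rfl⟩) D' (rfl | ⟨t, ht, rfl⟩)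
    · exact Or.inl (empty_inter _)
    · exact Or.inl (empty_inter _)
    · exact Or.inl (inter_empty _)
    · rw [T.convexHull_inter_convexHull hs ht]
      rcases (s ∩ t).eq_empty_or_nonempty with h | h
      · left
        have : (s : Set V) ∩ t = ∅ := by rw [← Finset.coe_inter, h, Finset.coe_empty]
        rw [this, convexHull_empty]
      · right
        exact ⟨s ∩ t, T.down_closed hs Finset.inter_subset_left h, by rw [Finset.coe_inter]⟩
  -- the list of all simplices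
  let l : List (Set V) := (hT.toFinset.toList).map fun s : Finset V => convexHull ℝ (s : Set V)
  have hl : ∀ D ∈ l, D ∈ 𝒟 := by
    intro D hD
    obtain ⟨s, hs, rfl⟩ := List.mem_map.1 hD
    rw [Finset.mem_toList, Set.Finite.mem_toFinset] at hs
    exact Or.inr ⟨s, hs, rfl⟩
  have hlU : lU l = T.space := by
    ext x
    rw [mem_lU, Geometry.SimplicialComplex.mem_space_iff]
    constructor
    · rintro ⟨D, hD, hx⟩
      obtain ⟨s, hs, rfl⟩ := List.mem_map.1 hD
      rw [Finset.mem_toList, Set.Finite.mem_toFinset] at hs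
      exact ⟨s, hs, hx⟩
    · rintro ⟨s, hs, hx⟩
      refine ⟨_, List.mem_map.2 ⟨s, ?_, rfl⟩, hx⟩
      rw [Finset.mem_toList, Set.Finite.mem_toFinset]
      exact hs
  have hcs : IsCompact T.space := by
    have e : T.space = ⋃ s ∈ hT.toFinset, convexHull ℝ (s : Set V) := by
      ext x
      rw [Geometry.SimplicialComplex.mem_space_iff, mem_iUnion₂]
      constructor
      · rintro ⟨s, hs, hx⟩
        exact ⟨s, by rwa [Set.Finite.mem_toFinset], hx⟩
      · rintro ⟨s, hs, hx⟩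
        exact ⟨s, by rwa [Set.Finite.mem_toFinset] at hs, hx⟩
    rw [e]
    exact hT.toFinset.isCompact_biUnion fun s _ => hcpt s
  refine ⟨linC a l.length (C + 4 * ℓm), (by linarith : C ≤ C + 4 * ℓm).trans (le_linC ha hC1 _),
    fun k _ W hW h => ?_⟩
  have hD : ∀ D ∈ 𝒟, LinW k (ovr Prod.fst (fun t => XY f t T.space) D)
      (ovr_mp (monoP_XY f T.space) D) W (C + 4 * ℓm) := by
    rintro D (rfl | ⟨s, hs, rfl⟩)
    · refine LinW.congr (linW_empty monoP_empty W _) fun t => ?_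
      ext w
      exact ⟨fun h => absurd h (notMem_empty _), fun h => absurd h.2 (notMem_empty _)⟩
    · have h1 := linW_XY_of_con (hcpt s) (hf.mono (T.convexHull_subset_space hs)) (hy s hs)
        (hKc s (y₀ s)) (hKm s (y₀ s) (hy s hs)) (fun x _ => hK0 (y₀ s) x)
        (fun x _ => hK1 (y₀ s) x) (hS s hs) hW.nonneg hC h
      refine LinW.congr (h1.mono (by linarith [hℓ1 s hs])) fun t => ?_
      ext w
      exact ⟨fun h => ⟨⟨T.convexHull_subset_space hs h.1, h.2⟩, h.1⟩, fun h => ⟨h.2, h.1.2⟩⟩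
  have := linW_lU continuous_fst (monoP_XY f T.space)
    (fun t ht => isCompact_XY hcs hf ht.le) hcl hint hW hC1 hD l.length l rfl hl
  rw [hlU] at this
  refine LinW.congr this fun t => ?_
  ext w
  exact ⟨fun h => h.1, fun h => ⟨h, h.1⟩⟩

/-- **From the based loops to the free loops.** `M` is dominated by the finite simplicial complex
`T` (for instance homotopy equivalent to it); the constant depends neither on the field nor on
the walls. -/
theorem lin_loops {V : Type} [NormedAddCommGroup V] [NormedSpace ℝ V] [PathConnectedSpace M]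
    {ρ : ℝ} (hρ : 0 < ρ) (hU : LS.UniqSeg M ρ) (T : Geometry.SimplicialComplex ℝ V)
    (hT : T.faces.Finite) (i : C(M, T.space)) (r : C(T.space, M))
    (hri : (ContinuousMap.id M).Homotopic (r.comp i)) (x₀ : M) {a : ℝ} (ha : 0 ≤ a) {C : ℝ}
    (hC : 0 < C) : ∃ C', C ≤ C' ∧ ∀ (k : Type) [Field k],
    ∀ W : ℕ → ℝ, Wall W a → LinW k (fun t => P x₀ x₀ t) (monoP_P x₀ x₀) W C →
      LinW k (fun t => FL M t) monoP_FL W C' := by
  classical
  let f : V → M := fun y => if h : y ∈ T.space then r ⟨y, h⟩ else x₀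
  have hfX : ∀ (y : V) (h : y ∈ T.space), f y = r ⟨y, h⟩ := fun y h => dif_pos h
  have hf : ContinuousOn f T.space := by
    rw [continuousOn_iff_continuous_domRestrict]
    have : T.space.domRestrict f = r := by
      funext y
      exact hfX y.1 y.2
    rw [this]
    exact r.continuous
  let g : M → V := fun x => (i x : V)
  have hgc : Continuous g := continuous_subtype_val.comp i.continuous
  have hg : ∀ x, g x ∈ T.space := fun x => (i x).2
  have hfg : ∀ x, f (g x) = r (i x) := fun x => hfX _ (i x).2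
  obtain ⟨C₁, hC₁, h₁⟩ := lin_pulled hρ hU T hT hf x₀ ha hC
  -- the tracks of the homotopy
  obtain ⟨F⟩ := hri
  let H : M × ℝ → M := fun p => F (projIcc 0 1 zero_le_one p.2, p.1)
  have hH : Continuous H := F.continuous.comp
    ((continuous_projIcc.comp continuous_snd).prodMk continuous_fst)
  obtain ⟨ℓ, S, hS⟩ := exists_tk hρ hU (isCompact_univ (X := M)) (H := H) hH.continuousOn
  have e0 : (fun x => H (x, 0)) = id := by
    funext x
    show F (projIcc 0 1 zero_le_one 0, x) = x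
    rw [projIcc_left]
    exact F.apply_zero x
  have e1 : (fun x => H (x, 1)) = fun x => f (g x) := by
    funext x
    show F (projIcc 0 1 zero_le_one 1, x) = f (g x)
    rw [projIcc_right, hfg]
    exact F.apply_one x
  rw [e0, e1] at hS
  have hcs : ∀ t, 0 < t → IsCompact (XY f t T.space) := by
    have hcpt : IsCompact T.space := by
      have e : T.space = ⋃ s ∈ hT.toFinset, convexHull ℝ (s : Set V) := by
        ext x
        rw [Geometry.SimplicialComplex.mem_space_iff, mem_iUnion₂]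
        constructor
        · rintro ⟨s, hs, hx⟩
          exact ⟨s, by rwa [Set.Finite.mem_toFinset], hx⟩
        · rintro ⟨s, hs, hx⟩
          exact ⟨s, by rwa [Set.Finite.mem_toFinset] at hs, hx⟩
      rw [e]
      exact hT.toFinset.isCompact_biUnion fun s _ => s.finite_toSet.isCompact_convexHull ℝ
    exact fun t ht => isCompact_XY hcpt hf ht.le
  have hn := hS.nonneg
  refine ⟨C₁ + 2 * (2 * ℓ), by linarith, fun k _ W hW h => ?_⟩
  exact (domRetr hcs hgc hg hS).linW (by linarith) hW.nonneg (by linarith) (h₁ k W hW h)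

end Loops

section Step

open Vale.Agent.P216.AS Vale.Agent.P216.H901 Vale.Agent.P216.PS Vale.Agent.P216.MV337
open Vale.Agent.P216.H754B Vale.Agent.P216.H894 Vale.Agent.P216.H83 Vale.Agent.P216.B64
open Vale.Agent.P216.H285 Vale.Agent.P216.H774 Vale.Agent.P216.H133C
open Vale.Agent.P216.H550 hiding linW_lU lin_pulled lin_loops exists_stepFL exists_stepFL1

/-- **The walls of the free loops**, from `OmegaOutC`: one constant for all fields and all
degrees. -/
theorem exists_stepFL {M : Type} [MetricSpace M] [CompactSpace M] [PathConnectedSpace M]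
    {ρ : ℝ} (hρ : 0 < ρ) (hU : LS.UniqSeg M ρ) {V : Type} [NormedAddCommGroup V]
    [NormedSpace ℝ V] (T : Geometry.SimplicialComplex ℝ V) (hT : T.faces.Finite)
    (i : C(M, T.space)) (r : C(T.space, M)) (hri : (ContinuousMap.id M).Homotopic (r.comp i))
    (x₀ : M) {B : ℝ} (hB : 0 < B) : ∃ C : ℝ, 0 < C ∧ ∀ (k : Type) [Field k],
    ∀ (q N : ℕ), q < N → OmegaOutC M q N x₀ B k → ∃ W : ℕ → ℝ, Wall W (2 * B) ∧ W 0 = 0 ∧
      ∀ n, (XP k M n).Step (W n) C := by
  obtain ⟨C, hC, h⟩ := lin_loops hρ hU T hT i r hri x₀ (a := 2 * B) (by linarith)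
    (C := 3 * B) (by linarith)
  refine ⟨C, by linarith, fun k _ q N hqN O => ?_⟩
  have S := slotsOf O hB.le
  refine ⟨S.T, S.wall (by omega) hB.le, ?_, fun n => ?_⟩
  · rw [S.T_zero]
    refine le_antisymm ?_ (PM.Fam.birth_nonneg _)
    refine le_of_forall_pos_le_add fun ε hε => ?_
    rw [zero_add]
    exact csInf_le (PM.Fam.alive_bdd _) ⟨hε, S.W0 ε hε⟩
  · have h1 : LinW k (fun t => P x₀ x₀ t) (monoP_P x₀ x₀) S.T (3 * B) := fun n =>
      S.step hqN hB n
    exact pmIso_step (isoFLr k M n) (h k S.T (S.wall (by omega) hB.le) h1 n)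

/-- **The walls of the free loops**, from `OmegaOut`: one constant for all fields, all degrees. -/
theorem exists_stepFL1 {M : Type} [MetricSpace M] [CompactSpace M] [PathConnectedSpace M]
    {ρ : ℝ} (hρ : 0 < ρ) (hU : LS.UniqSeg M ρ) {V : Type} [NormedAddCommGroup V]
    [NormedSpace ℝ V] (T : Geometry.SimplicialComplex ℝ V) (hT : T.faces.Finite)
    (i : C(M, T.space)) (r : C(T.space, M)) (hri : (ContinuousMap.id M).Homotopic (r.comp i))
    (x₀ : M) {B : ℝ} (hB : 0 < B) : ∃ C : ℝ, 0 < C ∧ ∀ (k : Type) [Field k],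
    ∀ m : ℕ, 0 < m → OmegaOut M m x₀ B k → ∃ W : ℕ → ℝ, Wall W B ∧ W 0 = 0 ∧
      ∀ n, (XP k M n).Step (W n) C := by
  obtain ⟨C, hC, h⟩ := lin_loops hρ hU T hT i r hri x₀ (a := B) hB.le (C := B) hB
  refine ⟨C, by linarith, fun k _ m hm O => ?_⟩
  have S := oneOf O hB.le
  refine ⟨S.T, S.wall hm hB.le, S.T_zero, fun n => ?_⟩
  have h1 : LinW k (fun t => P x₀ x₀ t) (monoP_P x₀ x₀) S.T B := fun n => S.step hm hB n
  exact pmIso_step (isoFLr k M n) (h k S.T (S.wall hm hB.le) h1 n)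

variable {M : Type} [MetricSpace M] [CompactSpace M] [PathConnectedSpace M] {x₀ : M}
  {q N m : ℕ} {B : ℝ} {k : Type} [Field k]

/-- **(hX), from `OmegaOutC`** and a domination. -/
theorem stepX_of_omegaC {ρ : ℝ} (hρ : 0 < ρ) (hU : LS.UniqSeg M ρ) {V : Type}
    [NormedAddCommGroup V] [NormedSpace ℝ V] (T : Geometry.SimplicialComplex ℝ V)
    (hT : T.faces.Finite) (i : C(M, T.space)) (r : C(T.space, M))
    (hri : (ContinuousMap.id M).Homotopic (r.comp i))
    (O : OmegaOutC M q N x₀ B k) (hB : 0 < B) (hqN : q < N) (n : ℕ) :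
    ∃ T C, 0 ≤ T ∧ 0 < C ∧ (XP k M n).Step T C := by
  obtain ⟨C, hC, H⟩ := exists_stepFL hρ hU T hT i r hri x₀ hB
  obtain ⟨W, hW, -, h⟩ := H k q N hqN O
  exact ⟨W n, C, hW.nonneg n, hC, h n⟩

/-- **(hX), from `OmegaOut`** and a domination. -/
theorem stepX_of_omega {ρ : ℝ} (hρ : 0 < ρ) (hU : LS.UniqSeg M ρ) {V : Type}
    [NormedAddCommGroup V] [NormedSpace ℝ V] (T : Geometry.SimplicialComplex ℝ V)
    (hT : T.faces.Finite) (i : C(M, T.space)) (r : C(T.space, M))
    (hri : (ContinuousMap.id M).Homotopic (r.comp i))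
    (O : OmegaOut M m x₀ B k) (hB : 0 < B) (hm : 0 < m) (n : ℕ) :
    ∃ T C, 0 ≤ T ∧ 0 < C ∧ (XP k M n).Step T C := by
  obtain ⟨C, hC, H⟩ := exists_stepFL1 hρ hU T hT i r hri x₀ hB
  obtain ⟨W, hW, -, h⟩ := H k m hm O
  exact ⟨W n, C, hW.nonneg n, hC, h n⟩

/-- **(hX) for compact manifolds, from `OmegaOutC`.** -/
theorem stepX_of_omegaC_mfd (E : Type*) [NormedAddCommGroup E] [NormedSpace ℝ E]
    [FiniteDimensional ℝ E] [ChartedSpace E M] [IsManifold 𝓘(ℝ, E) ∞ M] {ρ : ℝ} (hρ : 0 < ρ)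
    (hU : LS.UniqSeg M ρ) (O : OmegaOutC M q N x₀ B k) (hB : 0 < B)
    (hqN : q < N) (n : ℕ) : ∃ T C, 0 ≤ T ∧ 0 < C ∧ (XP k M n).Step T C := by
  obtain ⟨N', T, i, r, hT, hri⟩ := H269D.exists_dom_manifold E M hρ hU
  exact stepX_of_omegaC hρ hU T hT i r hri O hB hqN n

/-- **(hX) for compact manifolds, from `OmegaOut`.** -/
theorem stepX_of_omega_mfd (E : Type*) [NormedAddCommGroup E] [NormedSpace ℝ E]
    [FiniteDimensional ℝ E] [ChartedSpace E M] [IsManifold 𝓘(ℝ, E) ∞ M] {ρ : ℝ} (hρ : 0 < ρ)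
    (hU : LS.UniqSeg M ρ) (O : OmegaOut M m x₀ B k) (hB : 0 < B)
    (hm : 0 < m) (n : ℕ) : ∃ T C, 0 ≤ T ∧ 0 < C ∧ (XP k M n).Step T C := by
  obtain ⟨N', T, i, r, hT, hri⟩ := H269D.exists_dom_manifold E M hρ hU
  exact stepX_of_omega hρ hU T hT i r hri O hB hm n

/-- The walls for compact manifolds, from `OmegaOut`, with the constants: one constant for all
fields. -/
theorem exists_stepFL1_mfd (E : Type*) [NormedAddCommGroup E] [NormedSpace ℝ E]
    [FiniteDimensional ℝ E] [ChartedSpace E M] [IsManifold 𝓘(ℝ, E) ∞ M] {ρ : ℝ} (hρ : 0 < ρ)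
    (hU : LS.UniqSeg M ρ) (x₀ : M) (hB : 0 < B) :
    ∃ C : ℝ, 0 < C ∧ ∀ (k : Type) [Field k], ∀ m : ℕ, 0 < m → OmegaOut M m x₀ B k →
      ∃ W : ℕ → ℝ, Wall W B ∧ W 0 = 0 ∧ ∀ n, (XP k M n).Step (W n) C := by
  obtain ⟨N', T, i, r, hT, hri⟩ := H269D.exists_dom_manifold E M hρ hU
  exact exists_stepFL1 hρ hU T hT i r hri x₀ hB

end Step

end Vale.Agent.P216.H550T
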