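import Vale.Agent.P216.Ch2.AS.MVSets
import Vale.Agent.P216.H550.GenD3

/-!
# P216-T, row S: the walls of the free loops for every field

The theorems `lin_loops`, `exists_stepFL`, `exists_stepFL1` of `H550` and `stepX_of_omega_mfd` of
`H651` without the condition `(2 : k) ≠ 0`, hence for `ZMod 2` as well.
-/

set_option linter.all false

open Set

namespace Vale.Agent.P216.H550T

open Vale.Agent.P216.AS Vale.Agent.P216.H901 Vale.Agent.P216.H83 Vale.Agent.P216.H550

section LinW

variable {E : Type} [MetricSpace E] {k : Type} [Field k]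
  {X A B : ℝ → Set E} {hX : MonoP X} {hA : MonoP A} {hB : MonoP B} {T : ℕ → ℝ}
  {a C C' : ℝ}

/-- Strong excision for families of compact sets. -/
noncomputable def isoExcT (cA : ∀ t, 0 < t → IsCompact (A t))
    (cB : ∀ t, 0 < t → IsCompact (B t)) (hI : MonoP fun t => A t ∩ B t)
    (hU : MonoP fun t => A t ∪ B t) (q : ℕ) :
    PMIso (pmP k hU hA q) (pmP k hB hI q) where
  e t ht := LinearEquiv.ofBijective _ (Ch2.AS.strong_excision (Ch2.AS.Tw.of_isEmpty (Ch2.ok k)) (cA t ht) (cB t ht) (inv_tr _)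
    (inv_tr _) rfl rfl subset_union_right inter_subset_left q)
  nat s t hs ht h x := by
    obtain ⟨x, hx, rfl⟩ := H.exists_mk x
    rfl

/-- **Unions.** -/
theorem linW_union (W : Wall T a) (hC : 0 < C)
    (cA : ∀ t, 0 < t → IsCompact (A t)) (cB : ∀ t, 0 < t → IsCompact (B t))
    {hI : MonoP fun t => A t ∩ B t} {hU : MonoP fun t => A t ∪ B t}
    (h1 : LinW k A hA T C) (h2' : LinW k B hB T C) (h3 : LinW k _ hI T C) :
    LinW k _ hU T (9 * C + 12 * a) := by
  have ha := W.a0
  have e1 : LinWR k B (fun t => A t ∩ B t) hB hI T (3 * (C + a)) :=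
    LinW.rel W hC (fun _ _ => inter_subset_right) h2' h3
  have e2 : LinWR k (fun t => A t ∪ B t) A hU hA T (3 * (C + a)) := fun q =>
    pmIso_step (isoExcT cA cB hI hU q) (e1 q)
  have e3 := LinWR.abs W (by linarith) (fun _ _ => subset_union_left) e2
    (h1.mono (by linarith : C ≤ 3 * (C + a)))
  exact e3.mono (by linarith)

end LinW

section Engine

variable {E Y : Type} [MetricSpace E] [TopologicalSpace Y] {k : Type} [Field k]

/-- **Finite unions of closed sets from a class closed under intersections.** -/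
theorem linW_lU {ev : E → Y} (hev : Continuous ev) {Z : ℝ → Set E}
    (hZ : MonoP Z) (cZ : ∀ t, 0 < t → IsCompact (Z t)) {𝒟 : Set (Set Y)}
    (hcl : ∀ D ∈ 𝒟, IsClosed D) (hint : ∀ D ∈ 𝒟, ∀ D' ∈ 𝒟, D ∩ D' ∈ 𝒟) {T : ℕ → ℝ} {a C : ℝ}
    (W : Wall T a) (hC : 0 < C) (h : ∀ D ∈ 𝒟, LinW k (ovr ev Z D) (ovr_mp hZ D) T C) :
    ∀ (m : ℕ) (l : List (Set Y)), l.length = m → (∀ D ∈ l, D ∈ 𝒟) →
      LinW k (ovr ev Z (lU l)) (ovr_mp hZ _) T (linC a m C) := by
  have ha := W.a0
  intro m
  induction m with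
  | zero =>
    intro l hl _
    obtain rfl := List.length_eq_zero_iff.1 hl
    refine LinW.congr (linW_empty monoP_empty T C) fun t => ?_
    ext w
    exact ⟨fun h => absurd h (notMem_empty _), fun h => absurd h.2 (notMem_empty _)⟩
  | succ m ih =>
    intro l hl hlD
    obtain ⟨D, l, rfl⟩ : ∃ D l', l = D :: l' := by
      cases l with
      | nil => simp at hl
      | cons D l => exact ⟨D, l, rfl⟩
    have hl' : l.length = m := by simpa using hl
    have hD : D ∈ 𝒟 := hlD D List.mem_cons_self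
    have hlD' : ∀ D' ∈ l, D' ∈ 𝒟 := fun D' h' => hlD D' (List.mem_cons_of_mem _ h')
    have i1 := ih l hl' hlD'
    have i2 := (h D hD).mono (le_linC ha hC m)
    have i3 := ih (l.map (D ∩ ·)) (by rw [List.length_map, hl']) fun D' h' => by
      obtain ⟨D'', h1, rfl⟩ := List.mem_map.1 h'
      exact hint D hD D'' (hlD' D'' h1)
    have cl := isClosed_lU fun D' h' => hcl D' (hlD' D' h')
    have mI : MonoP fun t => ovr ev Z (lU l) t ∩ ovr ev Z D t := fun s t hs hst =>
      inter_subset_inter (ovr_mp hZ _ s t hs hst) (ovr_mp hZ _ s t hs hst)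
    have mU : MonoP fun t => ovr ev Z (lU l) t ∪ ovr ev Z D t := fun s t hs hst =>
      union_subset_union (ovr_mp hZ _ s t hs hst) (ovr_mp hZ _ s t hs hst)
    have i3' : LinW k (fun t => ovr ev Z (lU l) t ∩ ovr ev Z D t) mI T (linC a m C) := by
      refine LinW.congr i3 fun t => ?_
      rw [← inter_lU]
      ext w
      exact ⟨fun h => ⟨⟨h.1, h.2.2⟩, h.1, h.2.1⟩, fun h => ⟨h.1.1, h.2.2, h.1.2⟩⟩
    have := linW_union (hU := mU) W (linC_pos ha hC m)
      (fun t ht => ovr_compact hev cl (cZ t ht)) (fun t ht => ovr_compact hev (hcl D hD) (cZ t ht))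
      i1 i2 i3'
    refine LinW.congr this fun t => ?_
    ext w
    constructor
    · rintro (h | h)
      · exact ⟨h.1, Or.inr h.2⟩
      · exact ⟨h.1, Or.inl h.2⟩
    · rintro ⟨h1, h2 | h2⟩
      · exact Or.inr ⟨h1, h2⟩
      · exact Or.inl ⟨h1, h2⟩

end Engine

end Vale.Agent.P216.H550T
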